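import Vale.Agent.P224.POS.Psd

/-!
Certificate data: Gram matrices 4,5,6 and their positive semidefiniteness.
-/

namespace Vale.Agent.P224.POS.M6

open Vale.Agent.P224.POS

noncomputable section

/-- Gram matrix of block 4 ((u1-E)*sca00), rows of the lower triangle -/
def G4 : List (List Int) := rowsZ 68719476736 [
  46749138368,
  3521684092037750192716,
  261276889159259373634578811220844] 0

/-- witness of block 4 -/
def W4 : List (List Nat) := rowsN 524288 [
  372871,
  200311259524,
  76600610491857042] 0

set_option maxRecDepth 100000 in
theorem psd4 : psdChk 262144 1 32251458 W4 G4 = true := by decide +kernel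

/-- Gram matrix of block 5 ((u1-E)*sca10), rows of the lower triangle -/
def G5 : List (List Int) := rowsZ 1073741824 [
  966733412] 0

/-- witness of block 5 -/
def W5 : List (List Nat) := rowsN 32768 [
  29497] 0

set_option maxRecDepth 100000 in
theorem psd5 : psdChk 16384 1 128958749 W5 G5 = true := by decide +kernel

/-- Gram matrix of block 6 ((u1-E)*sca11), rows of the lower triangle -/
def G6 : List (List Int) := rowsZ 536870912 [
  483445456] 0

/-- witness of block 6 -/
def W6 : List (List Nat) := rowsN 32768 [
  25658] 0

set_option maxRecDepth 100000 in
theorem psd6 : psdChk 16384 1 64502999 W6 G6 = true := by decide +kernel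

end

end Vale.Agent.P224.POS.M6
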