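import Vale.Agent.P224.POS.Sos

/-!
Certificate data in dimension 6: the elements of the blocks.
-/

namespace Vale.Agent.P224.POS.M6

noncomputable section

/-- elements of block 0 (1*vec00) -/
def els0 : List (Nat × PE) := [
  (1, .sub (.mul (.pow (.v 0) 2) (.v 1)) (.mul (.mul (.v 0) (.v 1)) (.v 3))),
  (2, .v 2),
  (2, .mul (.v 2) (.v 3)),
  (2, .mul (.v 0) (.v 2)),
  (2, .mul (.mul (.v 0) (.v 2)) (.v 3)),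
  (2, .mul (.pow (.v 0) 2) (.v 2)),
  (3, .sub (.pow (.v 0) 2) (.mul (.v 0) (.v 3))),
  (3, .sub (.mul (.pow (.v 0) 2) (.v 3)) (.mul (.v 0) (.pow (.v 3) 2))),
  (3, .sub (.pow (.v 0) 3) (.mul (.pow (.v 0) 2) (.v 3))),
  (3, .pow (.v 2) 2),
  (3, .mul (.v 0) (.pow (.v 2) 2)),
  (4, .mul (.v 1) (.v 2)),
  (4, .mul (.mul (.v 0) (.v 1)) (.v 2)),
  (1, .mul (.v 2) (.v 7)),
  (1, .mul (.v 1) (.v 6)),
  (1, .mul (.v 0) (.v 4)),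
  (1, .mul (.mul (.v 0) (.v 3)) (.v 4)),
  (1, .mul (.mul (.v 0) (.v 2)) (.v 7)),
  (1, .mul (.mul (.v 0) (.v 1)) (.v 6)),
  (1, .mul (.pow (.v 0) 2) (.v 4)),
  (2, .v 5),
  (2, .mul (.v 3) (.v 5)),
  (2, .mul (.v 2) (.v 6)),
  (2, .mul (.v 1) (.v 7)),
  (2, .mul (.v 0) (.v 5)),
  (2, .mul (.mul (.v 0) (.v 3)) (.v 5)),
  (2, .mul (.mul (.v 0) (.v 2)) (.v 6)),
  (2, .mul (.mul (.v 0) (.v 1)) (.v 7)),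
  (2, .mul (.pow (.v 0) 2) (.v 5)),
  (3, .mul (.v 2) (.v 5)),
  (3, .mul (.v 1) (.v 4)),
  (3, .mul (.v 0) (.v 6)),
  (3, .mul (.mul (.v 0) (.v 3)) (.v 6)),
  (3, .mul (.mul (.v 0) (.v 2)) (.v 5)),
  (3, .mul (.mul (.v 0) (.v 1)) (.v 4)),
  (3, .mul (.pow (.v 0) 2) (.v 6)),
  (4, .mul (.v 2) (.v 4)),
  (4, .mul (.v 1) (.v 5)),
  (4, .mul (.v 0) (.v 7)),
  (4, .mul (.mul (.v 0) (.v 3)) (.v 7)),
  (4, .mul (.mul (.v 0) (.v 2)) (.v 4)),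
  (4, .mul (.mul (.v 0) (.v 1)) (.v 5)),
  (4, .mul (.pow (.v 0) 2) (.v 7)),
  (5, .v 0),
  (5, .mul (.v 0) (.v 3)),
  (5, .pow (.v 0) 2),
  (5, .sub (.mul (.pow (.v 0) 2) (.v 3)) (.mul (.v 0) (.pow (.v 3) 2))),
  (5, .sub (.pow (.v 0) 3) (.mul (.pow (.v 0) 2) (.v 3)))]

/-- elements of block 1 (1*vec01) -/
def els1 : List (Nat × PE) := [
  (1, .v 2),
  (1, .mul (.v 2) (.v 3)),
  (1, .mul (.v 0) (.v 2)),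
  (1, .mul (.mul (.v 0) (.v 2)) (.v 3)),
  (1, .mul (.pow (.v 0) 2) (.v 2)),
  (2, .sub (.mul (.v 0) (.v 1)) (.mul (.v 1) (.v 3))),
  (2, .sub (.mul (.pow (.v 0) 2) (.v 1)) (.mul (.mul (.v 0) (.v 1)) (.v 3))),
  (3, .mul (.v 1) (.v 2)),
  (3, .mul (.mul (.v 0) (.v 1)) (.v 2)),
  (4, .sub (.pow (.v 0) 2) (.mul (.v 0) (.v 3))),
  (4, .sub (.mul (.pow (.v 0) 2) (.v 3)) (.mul (.v 0) (.pow (.v 3) 2))),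
  (4, .sub (.pow (.v 0) 3) (.mul (.pow (.v 0) 2) (.v 3))),
  (4, .pow (.v 2) 2),
  (4, .mul (.v 0) (.pow (.v 2) 2)),
  (1, .mul (.v 2) (.v 6)),
  (1, .mul (.v 1) (.v 7)),
  (1, .mul (.v 0) (.v 5)),
  (1, .mul (.mul (.v 0) (.v 3)) (.v 5)),
  (1, .mul (.mul (.v 0) (.v 2)) (.v 6)),
  (1, .mul (.mul (.v 0) (.v 1)) (.v 7)),
  (1, .mul (.pow (.v 0) 2) (.v 5)),
  (2, .mul (.v 2) (.v 7)),
  (2, .mul (.v 1) (.v 6)),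
  (2, .mul (.v 0) (.v 4)),
  (2, .mul (.mul (.v 0) (.v 3)) (.v 4)),
  (2, .mul (.mul (.v 0) (.v 2)) (.v 7)),
  (2, .mul (.mul (.v 0) (.v 1)) (.v 6)),
  (2, .mul (.pow (.v 0) 2) (.v 4)),
  (3, .mul (.v 2) (.v 4)),
  (3, .mul (.v 1) (.v 5)),
  (3, .mul (.v 0) (.v 7)),
  (3, .mul (.mul (.v 0) (.v 3)) (.v 7)),
  (3, .mul (.mul (.v 0) (.v 2)) (.v 4)),
  (3, .mul (.mul (.v 0) (.v 1)) (.v 5)),
  (3, .mul (.pow (.v 0) 2) (.v 7)),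
  (4, .mul (.v 2) (.v 5)),
  (4, .mul (.v 1) (.v 4)),
  (4, .mul (.v 0) (.v 6)),
  (4, .mul (.mul (.v 0) (.v 3)) (.v 6)),
  (4, .mul (.mul (.v 0) (.v 2)) (.v 5)),
  (4, .mul (.mul (.v 0) (.v 1)) (.v 4)),
  (4, .mul (.pow (.v 0) 2) (.v 6))]

/-- elements of block 2 (1*vec10) -/
def els2 : List (Nat × PE) := [
  (1, .sub (.pow (.v 0) 2) (.mul (.v 0) (.v 3))),
  (1, .sub (.mul (.pow (.v 0) 2) (.v 3)) (.mul (.v 0) (.pow (.v 3) 2))),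
  (1, .sub (.pow (.v 0) 3) (.mul (.pow (.v 0) 2) (.v 3))),
  (1, .pow (.v 2) 2),
  (1, .mul (.v 0) (.pow (.v 2) 2)),
  (2, .mul (.v 1) (.v 2)),
  (2, .mul (.mul (.v 0) (.v 1)) (.v 2)),
  (3, .sub (.mul (.pow (.v 0) 2) (.v 1)) (.mul (.mul (.v 0) (.v 1)) (.v 3))),
  (4, .v 2),
  (4, .mul (.v 2) (.v 3)),
  (4, .mul (.v 0) (.v 2)),
  (4, .mul (.mul (.v 0) (.v 2)) (.v 3)),
  (4, .mul (.pow (.v 0) 2) (.v 2)),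
  (1, .mul (.v 2) (.v 5)),
  (1, .mul (.v 1) (.v 4)),
  (1, .mul (.v 0) (.v 6)),
  (1, .mul (.mul (.v 0) (.v 3)) (.v 6)),
  (1, .mul (.mul (.v 0) (.v 2)) (.v 5)),
  (1, .mul (.mul (.v 0) (.v 1)) (.v 4)),
  (1, .mul (.pow (.v 0) 2) (.v 6)),
  (2, .mul (.v 2) (.v 4)),
  (2, .mul (.v 1) (.v 5)),
  (2, .mul (.v 0) (.v 7)),
  (2, .mul (.mul (.v 0) (.v 3)) (.v 7)),
  (2, .mul (.mul (.v 0) (.v 2)) (.v 4)),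
  (2, .mul (.mul (.v 0) (.v 1)) (.v 5)),
  (2, .mul (.pow (.v 0) 2) (.v 7)),
  (3, .mul (.v 2) (.v 7)),
  (3, .mul (.v 1) (.v 6)),
  (3, .mul (.v 0) (.v 4)),
  (3, .mul (.mul (.v 0) (.v 3)) (.v 4)),
  (3, .mul (.mul (.v 0) (.v 2)) (.v 7)),
  (3, .mul (.mul (.v 0) (.v 1)) (.v 6)),
  (3, .mul (.pow (.v 0) 2) (.v 4)),
  (4, .mul (.v 2) (.v 6)),
  (4, .mul (.v 1) (.v 7)),
  (4, .mul (.v 0) (.v 5)),
  (4, .mul (.mul (.v 0) (.v 3)) (.v 5)),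
  (4, .mul (.mul (.v 0) (.v 2)) (.v 6)),
  (4, .mul (.mul (.v 0) (.v 1)) (.v 7)),
  (4, .mul (.pow (.v 0) 2) (.v 5)),
  (5, .v 1),
  (5, .mul (.v 0) (.v 1)),
  (5, .sub (.mul (.pow (.v 0) 2) (.v 1)) (.mul (.mul (.v 0) (.v 1)) (.v 3)))]

/-- elements of block 3 (1*vec11) -/
def els3 : List (Nat × PE) := [
  (1, .mul (.v 1) (.v 2)),
  (1, .mul (.mul (.v 0) (.v 1)) (.v 2)),
  (2, .sub (.pow (.v 0) 2) (.mul (.v 0) (.v 3))),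
  (2, .sub (.mul (.pow (.v 0) 2) (.v 3)) (.mul (.v 0) (.pow (.v 3) 2))),
  (2, .sub (.pow (.v 0) 3) (.mul (.pow (.v 0) 2) (.v 3))),
  (2, .pow (.v 2) 2),
  (2, .mul (.v 0) (.pow (.v 2) 2)),
  (3, .v 2),
  (3, .mul (.v 2) (.v 3)),
  (3, .mul (.v 0) (.v 2)),
  (3, .mul (.mul (.v 0) (.v 2)) (.v 3)),
  (3, .mul (.pow (.v 0) 2) (.v 2)),
  (4, .sub (.mul (.pow (.v 0) 2) (.v 1)) (.mul (.mul (.v 0) (.v 1)) (.v 3))),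
  (1, .mul (.v 2) (.v 4)),
  (1, .mul (.v 1) (.v 5)),
  (1, .mul (.v 0) (.v 7)),
  (1, .mul (.mul (.v 0) (.v 3)) (.v 7)),
  (1, .mul (.mul (.v 0) (.v 2)) (.v 4)),
  (1, .mul (.mul (.v 0) (.v 1)) (.v 5)),
  (1, .mul (.pow (.v 0) 2) (.v 7)),
  (2, .mul (.v 2) (.v 5)),
  (2, .mul (.v 1) (.v 4)),
  (2, .mul (.v 0) (.v 6)),
  (2, .mul (.mul (.v 0) (.v 3)) (.v 6)),
  (2, .mul (.mul (.v 0) (.v 2)) (.v 5)),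
  (2, .mul (.mul (.v 0) (.v 1)) (.v 4)),
  (2, .mul (.pow (.v 0) 2) (.v 6)),
  (3, .mul (.v 2) (.v 6)),
  (3, .mul (.v 1) (.v 7)),
  (3, .mul (.v 0) (.v 5)),
  (3, .mul (.mul (.v 0) (.v 3)) (.v 5)),
  (3, .mul (.mul (.v 0) (.v 2)) (.v 6)),
  (3, .mul (.mul (.v 0) (.v 1)) (.v 7)),
  (3, .mul (.pow (.v 0) 2) (.v 5)),
  (4, .mul (.v 2) (.v 7)),
  (4, .mul (.v 1) (.v 6)),
  (4, .mul (.v 0) (.v 4)),
  (4, .mul (.mul (.v 0) (.v 3)) (.v 4)),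
  (4, .mul (.mul (.v 0) (.v 2)) (.v 7)),
  (4, .mul (.mul (.v 0) (.v 1)) (.v 6)),
  (4, .mul (.pow (.v 0) 2) (.v 4)),
  (5, .v 2),
  (5, .mul (.v 0) (.v 2))]

/-- elements of block 4 ((u1-E)*sca00) -/
def els4 : List (Nat × PE) := [
  (0, .sub (.pow (.v 0) 2) (.mul (.v 0) (.v 3))),
  (0, .sub (.mul (.pow (.v 0) 2) (.v 3)) (.mul (.v 0) (.pow (.v 3) 2))),
  (0, .sub (.pow (.v 0) 3) (.mul (.pow (.v 0) 2) (.v 3)))]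

/-- elements of block 5 ((u1-E)*sca10) -/
def els5 : List (Nat × PE) := [
  (0, .sub (.mul (.pow (.v 0) 2) (.v 1)) (.mul (.mul (.v 0) (.v 1)) (.v 3)))]

/-- elements of block 6 ((u1-E)*sca11) -/
def els6 : List (Nat × PE) := [
  (0, .mul (.v 0) (.v 2))]

end

end Vale.Agent.P224.POS.M6
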