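import Vale.Agent.P224.POS.M6.Rows
import Vale.Agent.P224.POS.LawNumM
import Mathlib.Analysis.Real.Pi.Bounds

/-!
The numerical law of the certificate in dimension 6.
-/

namespace Vale.Agent.P224.POS.M6

open Vale.Agent.P224.UE

/-- **The numerical law.** -/
theorem hneg {γ : ℝ} (hγ : γ ≤ 551 / 1000) : ∀ Θ u r : ℝ, 6 / 5 ≤ Θ → Θ < 15 * Real.pi / 32 → 0 ≤ u →
    Θ ^ 2 * u ≤ 1 → u ^ 2 ≤ r → r ≤ u →
      Θ * (1 + γ * u + (0 + (0 + (-(52699753 / 16777216)) + (245821263 / 67108864)) * u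
        + ((-(171661435 / 67108864)) + (36158053 / 67108864)) * r
        + ((-(26232217 / 67108864)) + (21441047 / 33554432)) * u ^ 2
        + 0 * ((u - r) / (2 * ((3 : ℕ) : ℝ) + 1))))
        + (gam 3 3)⁻¹ * rvalM (2 * 3) (rl 503316480000 rows) u r < 15 * Real.pi / 32 := by
  intro Θ u r h1 h2 hu hT hr1 hr2
  have p1 := Real.pi_gt_d6
  have p2 := Real.pi_lt_d6
  have hg : (gam 3 3)⁻¹ = 15 / 2 := by norm_num [gam]
  have hr : rvalM (2 * 3) (rl 503316480000 rows) u r = -(110120713 / 469762048) * u + 186242185 / 469762048 * r := rval_eq u r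
  rw [hg, hr]
  refine law_negM_S (Cl := 1472621 / 1000000) (Cu := 1472623 / 1000000) (γu := 551 / 1000)
    (φ1 := 15 / 2 * (-(110120713 / 469762048))) (φ2 := 15 / 2 * (186242185 / 469762048))
    (by linarith) (by linarith) hγ (by norm_num) (by norm_num) (by norm_num) ?_ ?_
    h1 h2 hu hT hr1 hr2 (by ring)
  · intro T hT1 hT2
    exact quintic_neg (by norm_num) (by norm_num) (by norm_num) (by norm_num) (by norm_num)
      (by norm_num) (by norm_num) (le_of_eq rfl) (le_of_eq rfl) (le_of_eq rfl) (le_of_eq rfl)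
      (le_of_eq rfl) (le_of_eq rfl) hT1 hT2
  · intro T hT1 hT2
    exact quintic_neg (by norm_num) (by norm_num) (by norm_num) (by norm_num) (by norm_num)
      (by norm_num) (by norm_num) (le_of_eq rfl) (le_of_eq rfl) (le_of_eq rfl) (le_of_eq rfl)
      (le_of_eq rfl) (le_of_eq rfl) hT1 hT2

end Vale.Agent.P224.POS.M6
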